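import Vale.Agent.P281.H511.Gen.Prime
import Vale.Agent.P281.H964.S4b
import Vale.Agent.P281.H364.Gen.Crit

/-!
# P281, project T-V (helper399): block V8, the orbifold base of a fibration without exceptional
divisors
-/

open Set Filter Metric Vale.Agent.P281 Vale.Agent.P281.H713 Vale.Agent.P281.H64
open Vale.Agent.P281.H64.Gen
open Vale.Agent.P281.H511.Gen (sm)
open Vale.Agent.P281.H64.Thin (IsThinSet)
open scoped Topology ContDiff Manifold ENNReal

noncomputable section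

namespace Vale.Agent.P281.H399.Gen

section
variable {n p : ℕ} {X Y : Type} [TopologicalSpace X] [ChartedSpace (Cm n) X]
  [IsManifold 𝓘(ℂ, Cm n) ω X] [TopologicalSpace Y] [ChartedSpace (Cm p) Y]
  [IsManifold 𝓘(ℂ, Cm p) ω Y] {f : X → Y}

/-- a general point of `D` -/
theorem gen_point (hf : ContMDiff 𝓘(ℂ, Cm n) 𝓘(ℂ, Cm p) ω f) {D : Set X} {G : Set Y}
    (hD : J.IsPrime (Cm n) D) (hG : J.IsPrime (Cm p) G) (him : closure (f '' D) = G)
    {𝒢 : Set (Set Y)} (h𝒢f : 𝒢.Finite) (h𝒢 : ∀ G' ∈ 𝒢, J.IsPrime (Cm p) G' ∧ G' ≠ G) {x : X}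
    (hx : x ∈ D) {N : Set X} (hN : N ∈ 𝓝 x) :
    ∃ y ∈ N, y ∈ sm n D ∧ f y ∈ sm p G ∧ ∀ G' ∈ 𝒢, f y ∉ G' := by
  have hA : IsAnalyticSet (Cm p) ((G \ sm p G) ∪ ⋃₀ 𝒢) :=
    H511.Gen.isAnalyticSet_union (H511.Gen.isAnalyticSet_sing hG.2.1)
      (H511.Gen.isAnalyticSet_sUnion h𝒢f fun G' h => H511.Gen.isAnalyticSet_prime (h𝒢 G' h).1)
  have hA' := H511.Gen.isAnalyticSet_preimage hf hA
  have hnot : ¬ D ⊆ f ⁻¹' ((G \ sm p G) ∪ ⋃₀ 𝒢) := by
    intro h
    refine H511.Gen.not_subset_sing_union hG h𝒢f h𝒢 ?_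
    calc G = closure (f '' D) := him.symm
      _ ⊆ _ := closure_minimal (image_subset_iff.2 h) (H511.Gen.isAnalyticSet_isClosed hA)
  have h1 := H511.Gen.subset_closure_diff hD hA' hnot hx
  obtain ⟨y, hyN, hyD, hyA⟩ := mem_closure_iff_nhds.1 h1 N hN
  have h2 : f y ∈ G := by
    rw [← him]
    exact subset_closure (mem_image_of_mem f hyD.1)
  refine ⟨y, hyN, hyD, ?_, ?_⟩
  · by_contra h3
    exact hyA (Or.inl ⟨h2, h3⟩)
  · intro G' hG' h3
    exact hyA (Or.inr ⟨G', hG', h3⟩)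

/-- The set of the multiplicities along `D`. -/
def mulSet (n p : ℕ) {X Y : Type} [TopologicalSpace X] [ChartedSpace (Cm n) X]
    [TopologicalSpace Y] [ChartedSpace (Cm p) Y] (f : X → Y) (D : Set X) (G : Set Y) : Set ℕ :=
  {k : ℕ | ∃ x ∈ D, ∃ e g w, J.IsLocalEq (Cm n) D e x ∧ J.IsLocalEq (Cm p) G g (f x) ∧
    J.HolAt (Cm n) w x ∧ w x ≠ 0 ∧ ∀ᶠ z in 𝓝 x, g (f z) = e z ^ k * w z}

/-- The infimum of the multiplicities. -/
def mm (n p : ℕ) {X Y : Type} [TopologicalSpace X] [ChartedSpace (Cm n) X]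
    [TopologicalSpace Y] [ChartedSpace (Cm p) Y] (f : X → Y) (Δ : Set X → ℝ) (G : Set Y) : ℝ≥0∞ :=
  ⨅ (D : Set X) (_ : J.IsPrime (Cm n) D ∧ closure (f '' D) = G),
    ((sInf (mulSet n p f D G) : ℕ) : ℝ≥0∞) * (1 - ENNReal.ofReal (Δ D))⁻¹

omit [IsManifold 𝓘(ℂ, Cm n) ω X] [IsManifold 𝓘(ℂ, Cm p) ω Y] in
theorem base_of {Δ : Set X → ℝ} {G : Set Y} (hG : J.IsPrime (Cm p) G) :
    TZ.S.base (Cm n) (Cm p) f Δ G = (1 - (mm n p f Δ G)⁻¹).toReal := by
  rw [TZ.S.base, if_pos hG]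
  rfl

omit [IsManifold 𝓘(ℂ, Cm n) ω X] [IsManifold 𝓘(ℂ, Cm p) ω Y] in
theorem base_not {Δ : Set X → ℝ} {G : Set Y} (hG : ¬ J.IsPrime (Cm p) G) :
    TZ.S.base (Cm n) (Cm p) f Δ G = 0 := by
  rw [TZ.S.base, if_neg hG]

omit [IsManifold 𝓘(ℂ, Cm n) ω X] [IsManifold 𝓘(ℂ, Cm p) ω Y] in
theorem isPrime_of {Δ : Set X → ℝ} {G : Set Y} (hG : TZ.S.base (Cm n) (Cm p) f Δ G ≠ 0) :
    J.IsPrime (Cm p) G := by
  by_contra h
  exact hG (base_not h)

omit [IsManifold 𝓘(ℂ, Cm n) ω X] [IsManifold 𝓘(ℂ, Cm p) ω Y] in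
/-- The pull-back of a local equation by a submersion. -/
theorem dif_comp (hf : ContMDiff 𝓘(ℂ, Cm n) 𝓘(ℂ, Cm p) ω f) {g : Y → ℂ} {x : X}
    (hg : J.HolAt (Cm p) g (f x)) (hd : J.dif (Cm p) g (f x) ≠ 0)
    (hs : Function.Surjective (mfderiv 𝓘(ℂ, Cm n) 𝓘(ℂ, Cm p) f x)) :
    J.dif (Cm n) (fun z => g (f z)) x ≠ 0 := by
  have h1 : J.dif (Cm n) (g ∘ f) x =
      (J.dif (Cm p) g (f x)).comp (mfderiv 𝓘(ℂ, Cm n) 𝓘(ℂ, Cm p) f x) :=
    mfderiv_comp x (hg.mdifferentiableAt (by simp)) ((hf x).mdifferentiableAt (by simp))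
  intro h
  apply hd
  refine ContinuousLinearMap.ext fun v => ?_
  obtain ⟨u, hu⟩ := hs v
  have h2 := congrArg (fun L : Cm n →L[ℂ] ℂ => L u) (h1.symm.trans h)
  have h3 : J.dif (Cm p) g (f x) (mfderiv 𝓘(ℂ, Cm n) 𝓘(ℂ, Cm p) f x u) = 0 := h2
  rw [hu] at h3
  exact h3

omit [IsManifold 𝓘(ℂ, Cm p) ω Y] in
/-- the multiplicity is one at the points where `f` is submersive -/
theorem one_mem (hf : ContMDiff 𝓘(ℂ, Cm n) 𝓘(ℂ, Cm p) ω f) {D : Set X} {G : Set Y}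
    (hDG : ∀ z ∈ D, f z ∈ G) {x : X} (hx : x ∈ sm n D) (hfx : f x ∈ sm p G)
    (hs : Function.Surjective (mfderiv 𝓘(ℂ, Cm n) 𝓘(ℂ, Cm p) f x)) : 1 ∈ mulSet n p f D G := by
  obtain ⟨hxD, e, he, hde⟩ := hx
  obtain ⟨hxG, g, hg, hdg⟩ := hfx
  have heh := H511.Gen.isLocalEq_holAt he
  have hgh := H511.Gen.isLocalEq_holAt hg
  have he0 : e x = 0 := (H511.Gen.isLocalEq_mem_iff he).self_of_nhds.1 hxD
  have hh : J.HolAt (Cm n) (fun z => g (f z)) x := ContMDiffAt.comp x hgh (hf x)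
  have h0 : ∀ᶠ z in 𝓝 x, e z = 0 → g (f z) = 0 := by
    filter_upwards [H511.Gen.isLocalEq_mem_iff he,
      hf.continuous.continuousAt.eventually (H511.Gen.isLocalEq_mem_iff hg)] with z h1 h2 h3
    exact h2.1 (hDG z (h1.2 h3))
  obtain ⟨w, hw, hwe⟩ := H511.Gen.exists_factor heh he0 hde hh h0
  have h1 := H511.Gen.dif_mul_unit heh he0 hw hwe
  refine ⟨x, hxD, e, g, w, he, hg, hw, ?_, ?_⟩
  · intro h2
    apply dif_comp hf hgh hdg hs
    rw [h1, h2]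
    refine ContinuousLinearMap.ext fun v => ?_
    show (0 : ℂ) * J.dif (Cm n) e x v = 0
    rw [zero_mul]
  · filter_upwards [hwe] with z hz
    rw [hz, pow_one]

omit [IsManifold 𝓘(ℂ, Cm n) ω X] in
/-- the image of a prime divisor of `f⁻¹(G)` is `G` -/
theorem dominate (hne : NoExc (Cm n) (Cm p) f) {P : Set X} {G : Set Y} (hP : J.IsPrime (Cm n) P)
    (hG : J.IsPrime (Cm p) G) (hPG : P ⊆ f ⁻¹' G) : closure (f '' P) = G := by
  have h1 : closure (f '' P) ⊆ G := closure_minimal (image_subset_iff.2 hPG) hG.1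
  rcases hne P hP with h | h
  · exfalso
    rw [h] at h1
    obtain ⟨y, hy⟩ := hG.2.2.nonempty
    obtain ⟨z, -, hz⟩ := IsLocalEq.exists_notMem (E := Cm p) (D := G) hG.2.1 isOpen_univ
      ⟨y, mem_univ y⟩
    exact hz (h1 (mem_univ z))
  · exact H511.Gen.prime_eq_of_subset h hG h1

/-- there are many prime divisors in `f⁻¹(G)` -/
theorem exists_prime [T2Space X] [PreconnectedSpace X] (hI : IrrStmt)
    (hf : ContMDiff 𝓘(ℂ, Cm n) 𝓘(ℂ, Cm p) ω f) (hsurj : Function.Surjective f)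
    (hne : NoExc (Cm n) (Cm p) f) {G : Set Y} (hG : J.IsPrime (Cm p) G) {x : X} (hx : f x ∈ G)
    {N : Set X} (hN : N ∈ 𝓝 x) :
    ∃ P, J.IsPrime (Cm n) P ∧ closure (f '' P) = G ∧ ∃ z ∈ N, z ∈ P := by
  have hex : ∃ x, f x ∉ G := by
    obtain ⟨z, -, hz⟩ := IsLocalEq.exists_notMem (E := Cm p) (D := G) hG.2.1 isOpen_univ
      ⟨f x, mem_univ _⟩
    obtain ⟨x', rfl⟩ := hsurj z
    exact ⟨x', hz⟩
  have hyp := H511.Gen.isHyp_preimage hf hG.2.1
    (H511.Gen.not_eventually_preimage hf hG.2.1 hex)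
  obtain ⟨g, hg, hg0, hgD⟩ := hyp x
  obtain ⟨z, hzN, e, he, he0, hde, heD⟩ := H511.Gen.exists_smooth hg hg0 hgD hx hN
  obtain ⟨P, hP, hPD, hPe⟩ := hI n X (f ⁻¹' G) (hG.1.preimage hf.continuous) hyp z e he he0 hde heD
  refine ⟨P, hP, dominate hne hP hG hPD, z, hzN, ?_⟩
  exact (H511.Gen.isLocalEq_mem_iff hPe).self_of_nhds.2 he0

/-- `Γ` has normal crossings at the smooth points of one component -/
theorem snc_of {Γ : Set Y → ℝ} {G : Set Y} {y : Y} (hy : y ∈ G → y ∈ sm p G)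
    (h : ∀ G', Γ G' ≠ 0 → y ∈ G' → G' = G) : TZ.S.SNCAt (Cm p) Γ y := by
  intro g hg c
  by_cases hne : Nonempty {G' // Γ G' ≠ 0 ∧ y ∈ G'}
  · obtain ⟨⟨G₀, h1, h2⟩⟩ := hne
    have h3 := h G₀ h1 h2
    subst h3
    have h5 : J.dif (Cm p) (g G₀) y ≠ 0 := H511.Gen.dif_ne_of_mem_sm (hy h2) (hg G₀ h1 h2)
    have h6 : ∃ ξ, J.dif (Cm p) (g G₀) y ξ ≠ 0 := by
      by_contra hcon
      push Not at hcon
      apply h5
      exact ContinuousLinearMap.ext fun v => hcon v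
    obtain ⟨ξ, hξ⟩ := h6
    refine ⟨(c ⟨G₀, h1, h2⟩ / J.dif (Cm p) (g G₀) y ξ) • ξ, ?_⟩
    funext ⟨G', h7, h8⟩
    have h9 : G' = G₀ := h G' h7 h8
    subst h9
    change J.dif (Cm p) (g G') y (_ • ξ) = _
    rw [map_smul, smul_eq_mul, div_mul_cancel₀ _ hξ]
  · exact ⟨0, funext fun i => absurd ⟨i⟩ hne⟩

end

/-- **V8** -/
theorem base (hI : IrrStmt) (hF : FinStmt) (hC : CritStmt) (hK : ComplStmt) : BaseStmt := by
  classical
  intro n p X Y _ _ _ _ _ _ _ _ _ _ f Δ hf hconn hΔ hne Γ hΓ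
  subst hΓ
  obtain ⟨hfin, hpr, hrat, -⟩ := hΔ
  have hsurj : Function.Surjective f := fun y => (hconn y).nonempty
  have hΔ0 : ∀ D, 0 ≤ Δ D := fun D => by
    obtain ⟨q, hq, h0, -⟩ := hrat D
    rw [hq]
    exact_mod_cast h0
  have hΔ1 : ∀ D, Δ D ≤ 1 := fun D => by
    obtain ⟨q, hq, -, h1⟩ := hrat D
    rw [hq]
    exact_mod_cast h1
  -- the critical set is thin
  have hY : ConnectedSpace Y := hsurj.connectedSpace hf.continuous
  have hcrit : {D : Set X | J.IsPrime (Cm n) D ∧ D ⊆ H364.critSet (n := n) (p := p) f}.Finite := by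
    refine hF n X _ (H511.Gen.isThinSet_of_analytic (H364.critSet_analytic hf) ?_)
    obtain ⟨S, hS, hSf⟩ := hC n p X Y f hf hconn
    obtain ⟨y, hy⟩ := (hK p Y S hS).1.nonempty
    obtain ⟨x, rfl⟩ := hsurj y
    intro h
    have hx : x ∈ H364.critSet (n := n) (p := p) f := by rw [h]; exact mem_univ x
    exact hx ((hSf S Subset.rfl hS.1).submersive x hy)
  have hcritc : IsClosed (H364.critSet (n := n) (p := p) f) :=
    H511.Gen.isAnalyticSet_isClosed (H364.critSet_analytic hf)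
  have hΓfin : {G | TZ.S.base (Cm n) (Cm p) f Δ G ≠ 0}.Finite := by
    refine ((hfin.union hcrit).image fun D => closure (f '' D)).subset ?_
    intro G hG
    have hGp := isPrime_of hG
    obtain ⟨y, hy⟩ := hGp.2.2.nonempty
    obtain ⟨x, rfl⟩ := hsurj y
    obtain ⟨P, hP, hPG, -⟩ := exists_prime hI hf hsurj hne hGp hy.1 univ_mem
    refine ⟨P, ?_, hPG⟩
    by_cases hΔP : Δ P = 0
    swap
    · exact Or.inl hΔP
    right
    refine ⟨hP, ?_⟩
    by_contra hcon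
    obtain ⟨x₁, hx₁, hx₁c⟩ := not_subset.1 hcon
    obtain ⟨y, hyN, hyD, hyG, -⟩ := gen_point hf hP hGp hPG finite_empty
      (fun G' h => absurd h (notMem_empty G')) hx₁ (hcritc.isOpen_compl.mem_nhds hx₁c)
    have h1 : 1 ∈ mulSet n p f P G := one_mem hf (fun z hz => by
      rw [← hPG]
      exact subset_closure (mem_image_of_mem f hz)) hyD hyG (not_not.1 hyN)
    apply hG
    rw [base_of hGp]
    apply H964.coef_zero
    refine le_trans (iInf₂_le P ⟨hP, hPG⟩) ?_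
    rw [hΔP, ENNReal.ofReal_zero, tsub_zero, inv_one, mul_one]
    exact_mod_cast Nat.sInf_le h1
  refine ⟨hΓfin, fun G hG => isPrime_of hG, ?_, ?_, ?_⟩
  · -- rationality
    intro G
    by_cases hG : J.IsPrime (Cm p) G
    · rw [base_of hG]
      suffices h : ∃ r : ℚ, (1 - (mm n p f Δ G)⁻¹).toReal = r by
        obtain ⟨r, hr⟩ := h
        refine ⟨r, hr, ?_, ?_⟩
        · have := H964.coef_nonneg (mm n p f Δ G)
          rw [hr] at this
          exact_mod_cast this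
        · have := H964.coef_le_one (mm n p f Δ G)
          rw [hr] at this
          exact_mod_cast this
      have hr : (range Δ).Finite := by
        refine ((hfin.image Δ).union (finite_singleton 0)).subset ?_
        rintro _ ⟨D, rfl⟩
        by_cases h : Δ D = 0
        · right; exact h
        · left; exact ⟨D, h, rfl⟩
      rcases H964.iInf_attained (P := fun D => J.IsPrime (Cm n) D ∧ closure (f '' D) = G)
        (k := fun D => sInf (mulSet n p f D G)) (δ := Δ) hr with h | ⟨D, hD, h⟩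
      · refine ⟨1, ?_⟩
        have e : mm n p f Δ G = ⊤ := by
          rw [mm]
          exact iInf₂_eq_top.mpr fun D hD => absurd hD (h D)
        rw [e]
        simp
      · obtain ⟨q, hq, h0, h1⟩ := hrat D
        have e : mm n p f Δ G = ((sInf (mulSet n p f D G) : ℕ) : ℝ≥0∞) *
          (1 - ENNReal.ofReal (Δ D))⁻¹ := h
        rw [e]
        exact H964.rat_coef _ hq h0 h1
    · exact ⟨0, by rw [base_not hG, Rat.cast_zero], le_rfl, zero_le_one⟩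
  · -- normal crossings
    intro z G hG hz
    have hGp := isPrime_of hG
    rw [mem_closure_iff_nhds]
    intro N hN
    obtain ⟨P, hP, hPG, z₁, hz₁, hz₁P⟩ := exists_prime hI hf hsurj hne hGp hz
      (interior_mem_nhds.2 hN)
    have h𝒢f : {G' | TZ.S.base (Cm n) (Cm p) f Δ G' ≠ 0 ∧ G' ≠ G}.Finite :=
      hΓfin.subset fun G' h => h.1
    obtain ⟨y, hyN, hyD, hyG, hy⟩ := gen_point hf hP hGp hPG h𝒢f
      (fun G' h => ⟨isPrime_of h.1, h.2⟩) hz₁P (mem_interior_iff_mem_nhds.1 hz₁)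
    refine ⟨y, hyN, ⟨G, hG, hyG.1⟩, ?_⟩
    have h1 : ∀ᶠ y' in 𝓝 (f y), ∀ G' ∈ {G' | TZ.S.base (Cm n) (Cm p) f Δ G' ≠ 0 ∧ G' ≠ G},
        y' ∉ G' := by
      rw [eventually_all_finite h𝒢f]
      intro G' hG'
      exact (isPrime_of hG'.1).1.isOpen_compl.mem_nhds (hy G' hG')
    filter_upwards [h1, H511.Gen.sm_eventually hyG] with y' h2 h3
    refine snc_of h3 fun G' h4 h5 => ?_
    by_contra h6
    exact h2 G' ⟨h4, h6⟩ h5
  · -- the morphism
    intro z G g e w k hG hg he hez hde hw hwz hk hgf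
    have hGp := isPrime_of hG
    have h1 : g (f z) = 0 := by
      rw [hgf.self_of_nhds, hez, zero_pow hk.ne', zero_mul]
    have hgm := H511.Gen.isLocalEq_mem_iff hg
    have h2 : f z ∈ G := hgm.self_of_nhds.2 h1
    have h4 : ∀ᶠ x in 𝓝 z, x ∈ f ⁻¹' G ↔ e x = 0 := by
      have h5 := hf.continuous.continuousAt.eventually hgm
      have h6 : ∀ᶠ x in 𝓝 z, w x ≠ 0 := ContinuousAt.eventually_ne
        (ContMDiffAt.continuousAt hw) hwz
      filter_upwards [h5, h6, hgf] with x h7 h8 h9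
      rw [mem_preimage, h7, h9, mul_eq_zero, or_iff_left h8, pow_eq_zero_iff hk.ne']
    have hex : ∃ x, f x ∉ G := by
      obtain ⟨y, -, hy⟩ := IsLocalEq.exists_notMem (E := Cm p) (D := G) hGp.2.1 isOpen_univ
        ⟨f z, mem_univ _⟩
      obtain ⟨x', rfl⟩ := hsurj y
      exact ⟨x', hy⟩
    obtain ⟨D, hD, hDf, hDe⟩ := hI n X (f ⁻¹' G) (hGp.1.preimage hf.continuous)
      (H511.Gen.isHyp_preimage hf hGp.2.1 (H511.Gen.not_eventually_preimage hf hGp.2.1 hex))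
      z e he hez hde h4
    have hzD : z ∈ D := (H511.Gen.isLocalEq_mem_iff hDe).self_of_nhds.2 hez
    have h5 : closure (f '' D) = G := dominate hne hD hGp hDf
    have h6 : sInf (mulSet n p f D G) ≤ k :=
      Nat.sInf_le ⟨z, hzD, e, g, w, hDe, hg, hw, hwz, hgf⟩
    have h7 : mm n p f Δ G ≤ ((sInf (mulSet n p f D G) : ℕ) : ℝ≥0∞) *
        (1 - ENNReal.ofReal (Δ D))⁻¹ :=
      iInf₂_le D ⟨hD, h5⟩
    rw [base_of hGp] at hG ⊢
    have h8 := H964.coef_le hk h6 (hΔ0 D) (hΔ1 D) h7 hG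
    have h9 : Δ D ≤ ∑ᶠ (D : Set X) (_ : z ∈ D), Δ D := by
      have e1 : (∑ᶠ (_ : z ∈ D), Δ D) = Δ D := finsum_eq_if.trans (if_pos hzD)
      have h10 := single_le_finsum (f := fun D : Set X => ∑ᶠ (_ : z ∈ D), Δ D) D
        (hfin.subset fun D' hD' => by
          intro h
          apply hD'
          change (∑ᶠ (_ : z ∈ D'), Δ D') = 0
          rw [h]
          exact finsum_zero) (fun D' => by
          change 0 ≤ ∑ᶠ (_ : z ∈ D'), Δ D'
          rw [finsum_eq_if]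
          split_ifs
          · exact hΔ0 D'
          · exact le_rfl)
      exact e1.symm.le.trans h10
    linarith

end Vale.Agent.P281.H399.Gen
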