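import Vale.Agent.P281.H64.Gen.Spec
import Vale.Agent.P281.MF.Div

/-!
# P281, project T-V (helper399): block V5, the horizontal part of an SNC boundary is étale off a
small set
-/

open Set Filter Metric Vale.Agent.P281 Vale.Agent.P281.H713 Vale.Agent.P281.H64
open Vale.Agent.P281.H64.Thin (IsThinSet)
open scoped Topology ContDiff Manifold

noncomputable section

namespace Vale.Agent.P281.H399.Gen

open Vale.Agent.P281.H64.Gen

/-! ### Linear algebra -/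

/-- a nonzero linear form is onto -/
theorem form_surj {V : Type*} [AddCommGroup V] [Module ℂ V] {u : V →ₗ[ℂ] ℂ} (hu : u ≠ 0) (c : ℂ) :
    ∃ v, u v = c :=
  LinearMap.surjective hu c

theorem rank1 {p m : ℕ} {A : Cm (p + 1) →ₗ[ℂ] Cm p} {u : Cm (p + 1) →ₗ[ℂ] ℂ}
    {B : Cm m →ₗ[ℂ] Cm (p + 1)} (hu : u ≠ 0) (hB : ∀ v, u (B v) = 0) {ξ : Cm (p + 1)} (hξ : ξ ≠ 0)
    (h1 : A ξ = 0) (h2 : u ξ = 0) : ¬ Function.Surjective fun v => A (B v) := by
  intro hs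
  have hL : Function.Surjective (u.prod A) := by
    rintro ⟨c, y⟩
    obtain ⟨v, hv⟩ := form_surj hu c
    obtain ⟨w, hw⟩ := hs (y - A v)
    refine ⟨v + B w, ?_⟩
    have h3 : A (B w) = y - A v := hw
    rw [LinearMap.prod_apply]
    show (u (v + B w), A (v + B w)) = (c, y)
    rw [map_add, map_add, hv, hB, h3, add_zero, add_sub_cancel]
  have hi : Function.Injective (u.prod A) :=
    (LinearMap.injective_iff_surjective_of_finrank_eq_finrank (by simp [add_comm])).2 hL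
  apply hξ
  apply hi
  rw [map_zero, LinearMap.prod_apply]
  show (u ξ, A ξ) = 0
  rw [h1, h2]
  rfl

theorem rank2 {p m : ℕ} {A : Cm (p + 1) →ₗ[ℂ] Cm p} {u u' : Cm (p + 1) →ₗ[ℂ] ℂ}
    {B : Cm m →ₗ[ℂ] Cm (p + 1)} (hu : ∀ a b, ∃ v, u v = a ∧ u' v = b) (hB : ∀ v, u (B v) = 0)
    (hB' : ∀ v, u' (B v) = 0) : ¬ Function.Surjective fun v => A (B v) := by
  intro hs
  have hL : Function.Surjective ((u.prod u').prod A) := by
    rintro ⟨⟨a, b⟩, y⟩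
    obtain ⟨v, hv, hv'⟩ := hu a b
    obtain ⟨w, hw⟩ := hs (y - A v)
    refine ⟨v + B w, ?_⟩
    have h3 : A (B w) = y - A v := hw
    show ((u (v + B w), u' (v + B w)), A (v + B w)) = ((a, b), y)
    rw [map_add, map_add, map_add, hv, hv', hB, hB', h3, add_zero, add_zero, add_sub_cancel]
  have h4 := LinearMap.finrank_le_finrank_of_surjective hL
  simp at h4
  omega

section
variable {p : ℕ} {X Y : Type} [TopologicalSpace X] [ChartedSpace (Cm (p + 1)) X]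
  [IsManifold 𝓘(ℂ, Cm (p + 1)) ω X] [TopologicalSpace Y] [ChartedSpace (Cm p) Y]
  [IsManifold 𝓘(ℂ, Cm p) ω Y]

/-- the points of `D` where `f|D` is not étale -/
def Bad (p : ℕ) {X Y : Type} [TopologicalSpace X] [ChartedSpace (Cm (p + 1)) X]
    [TopologicalSpace Y] [ChartedSpace (Cm p) Y] (f : X → Y) (D : Set X) : Set X :=
  {x | x ∈ D ∧ ∃ g, IsLocalEq (Cm (p + 1)) D g x ∧ ∃ ξ : Cm (p + 1), ξ ≠ 0 ∧
    dM (Cm (p + 1)) (Cm p) f x ξ = 0 ∧ dV (Cm (p + 1)) g x ξ = 0}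

theorem ker_eq {D : Set X} {g g' : X → ℂ} {x : X} (hx : x ∈ D)
    (hg : IsLocalEq (Cm (p + 1)) D g x) (hg' : IsLocalEq (Cm (p + 1)) D g' x) {ξ : Cm (p + 1)}
    (h : dV (Cm (p + 1)) g x ξ = 0) : dV (Cm (p + 1)) g' x ξ = 0 := by
  obtain ⟨u, hu, -, hue⟩ := MF.leq_unit hg hg'
  have h1 : g' =ᶠ[𝓝 x] fun z => u z • g z := by
    filter_upwards [hue] with z hz
    rw [hz, smul_eq_mul, mul_comm]
  have h2 : dV (Cm (p + 1)) g' x = dV (Cm (p + 1)) (fun z => u z • g z) x := by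
    unfold dV
    rw [h1.mfderiv_eq]
  rw [h2, dV_smul hu hg.holAt, hg.mem_iff.1 hx]
  show (u x • dV (Cm (p + 1)) g x + (dV (Cm (p + 1)) u x).smulRight (0 : ℂ)) ξ = 0
  simp [h]

theorem dV_inj {x₀ x : X} (hx : x ∈ (chartAt (Cm (p + 1)) x₀).source) :
    Function.Bijective (dV (Cm (p + 1)) (chartAt (Cm (p + 1)) x₀ : X → Cm (p + 1)) x) := by
  have hdet : (dV (Cm (p + 1)) (chartAt (Cm (p + 1)) x₀ : X → Cm (p + 1)) x).det ≠ 0 :=
    jac_chart_ne_zero hx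
  exact (LinearMap.equivOfDetNeZero
      ((dV (Cm (p + 1)) (chartAt (Cm (p + 1)) x₀ : X → Cm (p + 1)) x :
        Cm (p + 1) →L[ℂ] Cm (p + 1)) : Cm (p + 1) →ₗ[ℂ] Cm (p + 1)) hdet).bijective

/-- kernel of the differential of `(g, χ ∘ f)` -/
theorem cons_ker {f : X → Y} (hf : ContMDiff 𝓘(ℂ, Cm (p + 1)) 𝓘(ℂ, Cm p) ω f) {y₀ : Y} {x : X}
    (hx : f x ∈ (chartAt (Cm p) y₀).source) {g : X → ℂ} (hg : HolV (Cm (p + 1)) g x)
    (ξ : Cm (p + 1)) :
    HolV (Cm (p + 1)) (fun z => (Fin.cons (g z) (chartAt (Cm p) y₀ (f z)) : Cm (p + 1))) x ∧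
    (dV (Cm (p + 1)) (fun z => (Fin.cons (g z) (chartAt (Cm p) y₀ (f z)) : Cm (p + 1))) x ξ = 0 ↔
      dM (Cm (p + 1)) (Cm p) f x ξ = 0 ∧ dV (Cm (p + 1)) g x ξ = 0) := by
  have h1 : HolV (Cm (p + 1)) (fun z => chartAt (Cm p) y₀ (f z)) x :=
    HolV.comp (E' := Cm p) (HolV.chart hx) (hf x)
  have h2 : HolV (Cm (p + 1))
      (fun z => (Fin.cons (g z) (chartAt (Cm p) y₀ (f z)) : Cm (p + 1))) x := by
    refine HolV.pi fun i => ?_
    refine Fin.cases ?_ (fun j => ?_) i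
    · exact hg
    · exact h1.eval j
  refine ⟨h2, ?_⟩
  have h3 : dV (Cm (p + 1)) (fun z => chartAt (Cm p) y₀ (f z)) x ξ =
      dV (Cm p) (chartAt (Cm p) y₀ : Y → Cm p) (f x) (dM (Cm (p + 1)) (Cm p) f x ξ) := by
    rw [dV_comp (E' := Cm p) (HolV.chart hx) (hf x)]
    rfl
  constructor
  · intro h0
    have h4 : ∀ i, dV (Cm (p + 1))
        (fun z => (Fin.cons (g z) (chartAt (Cm p) y₀ (f z)) : Cm (p + 1)) i) x ξ = 0 := fun i => by
      rw [← dV_apply h2, h0]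
      rfl
    refine ⟨?_, h4 0⟩
    obtain ⟨A, hA⟩ := dV_chart_leftInv (E := Cm p) hx
    have h5 : dV (Cm (p + 1)) (fun z => chartAt (Cm p) y₀ (f z)) x ξ = 0 := by
      funext j
      rw [dV_apply h1]
      exact h4 j.succ
    rw [h3] at h5
    have h6 := congrArg (fun B : Cm p →L[ℂ] Cm p => B (dM (Cm (p + 1)) (Cm p) f x ξ)) hA
    simp only [ContinuousLinearMap.comp_apply, h5, map_zero, ContinuousLinearMap.id_apply] at h6
    exact h6.symm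
  · rintro ⟨h4, h5⟩
    funext i
    rw [dV_apply h2]
    refine Fin.cases ?_ (fun j => ?_) i
    · exact h5
    · have h6 : dV (Cm (p + 1)) (fun z => chartAt (Cm p) y₀ (f z)) x ξ = 0 := by
        rw [h3, h4, map_zero]
      have h7 := congrFun h6 j
      rw [dV_apply h1] at h7
      exact h7

/-- a local equation of the critical set -/
theorem jac_eq {f : X → Y} (hf : ContMDiff 𝓘(ℂ, Cm (p + 1)) 𝓘(ℂ, Cm p) ω f) {y₀ : Y} {x₀ x : X}
    (hx₀ : x ∈ (chartAt (Cm (p + 1)) x₀).source)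
    (hx : f x ∈ (chartAt (Cm p) y₀).source) {g : X → ℂ} (hg : HolV (Cm (p + 1)) g x) :
    HolV (Cm (p + 1)) (fun z => (fderiv ℂ ((fun z => (Fin.cons (g z) (chartAt (Cm p) y₀ (f z)) :
      Cm (p + 1))) ∘ (chartAt (Cm (p + 1)) x₀).symm) (chartAt (Cm (p + 1)) x₀ z)).det) x ∧
    ((fderiv ℂ ((fun z => (Fin.cons (g z) (chartAt (Cm p) y₀ (f z)) :
      Cm (p + 1))) ∘ (chartAt (Cm (p + 1)) x₀).symm) (chartAt (Cm (p + 1)) x₀ x)).det = 0 ↔
      ∃ ξ : Cm (p + 1), ξ ≠ 0 ∧ dM (Cm (p + 1)) (Cm p) f x ξ = 0 ∧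
        dV (Cm (p + 1)) g x ξ = 0) := by
  set W : X → Cm (p + 1) := fun z => Fin.cons (g z) (chartAt (Cm p) y₀ (f z)) with hW
  set φ := chartAt (Cm (p + 1)) x₀ with hφ
  have hWh : HolV (Cm (p + 1)) W x := (cons_ker hf hx hg 0).1
  constructor
  · refine HolV.comp_contDiff (G := fun w => (fderiv ℂ (W ∘ φ.symm) w).det) (v := φ) ?_
      (HolV.chart hx₀)
    exact contDiff_det.contDiffAt.comp (φ x) ((hWh.rep hx₀).fderiv_right (m := ω) (by simp))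
  · have hbij := dV_inj hx₀
    have he := dV_eq_chart hx₀ hWh
    constructor
    · intro h0
      have h1 : ∃ v : Cm (p + 1), v ≠ 0 ∧ fderiv ℂ (W ∘ φ.symm) (φ x) v = 0 := by
        by_contra hcon
        push Not at hcon
        have hinj : Function.Injective
            ((fderiv ℂ (W ∘ φ.symm) (φ x) : Cm (p + 1) →L[ℂ] Cm (p + 1)) :
              Cm (p + 1) →ₗ[ℂ] Cm (p + 1)) :=
          (injective_iff_map_eq_zero _).2 fun v hv => by
            by_contra hv0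
            exact hcon v hv0 hv
        have h2 := LinearMap.isUnit_iff_ker_eq_bot
          ((fderiv ℂ (W ∘ φ.symm) (φ x) : Cm (p + 1) →L[ℂ] Cm (p + 1)) :
              Cm (p + 1) →ₗ[ℂ] Cm (p + 1))
        have h3 := (h2.2 (LinearMap.ker_eq_bot.2 hinj)).map LinearMap.det
        exact h3.ne_zero h0
      obtain ⟨v, hv, hv0⟩ := h1
      obtain ⟨ξ, rfl⟩ := hbij.2 v
      refine ⟨ξ, ?_, ?_⟩
      · rintro rfl
        exact hv (map_zero _)
      · refine ((cons_ker hf hx hg ξ).2).1 ?_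
        show dV (Cm (p + 1)) W x ξ = 0
        rw [he]
        exact hv0
    · rintro ⟨ξ, hξ, h1⟩
      have h2 : dV (Cm (p + 1)) W x ξ = 0 := ((cons_ker hf hx hg ξ).2).2 h1
      rw [he] at h2
      by_contra hdet
      have h3 := (LinearMap.equivOfDetNeZero
        ((fderiv ℂ (W ∘ φ.symm) (φ x) : Cm (p + 1) →L[ℂ] Cm (p + 1)) :
          Cm (p + 1) →ₗ[ℂ] Cm (p + 1)) hdet).injective
      apply hξ
      apply hbij.1
      rw [map_zero]
      apply h3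
      rw [map_zero]
      exact h2

theorem analytic_bad {f : X → Y} (hf : ContMDiff 𝓘(ℂ, Cm (p + 1)) 𝓘(ℂ, Cm p) ω f) {D : Set X}
    (hD : ∀ x, ∃ g, IsLocalEq (Cm (p + 1)) D g x) : IsAnalyticSet (Cm (p + 1)) (Bad p f D) := by
  intro x
  obtain ⟨g, hg⟩ := hD x
  have h1 : ∀ᶠ z in 𝓝 x, IsLocalEq (Cm (p + 1)) D g z ∧
      z ∈ (chartAt (Cm (p + 1)) x).source ∧ f z ∈ (chartAt (Cm p) (f x)).source := by
    filter_upwards [hg.eventually, (chartAt (Cm (p + 1)) x).open_source.mem_nhds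
      (mem_chart_source _ x), hf.continuous.continuousAt.eventually
        ((chartAt (Cm p) (f x)).open_source.mem_nhds (mem_chart_source _ _))] with z a1 a2 a3
    exact ⟨a1, a2, a3⟩
  obtain ⟨U, hU, hUo, hxU⟩ := eventually_nhds_iff.1 h1
  refine ⟨U, Bool, fun b => bif b then g else
    (fun z => (fderiv ℂ ((fun z => (Fin.cons (g z) (chartAt (Cm p) (f x) (f z)) :
      Cm (p + 1))) ∘ (chartAt (Cm (p + 1)) x).symm) (chartAt (Cm (p + 1)) x z)).det), hUo, hxU,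
      ?_, ?_⟩
  · intro b z hz
    obtain ⟨h2, h3, h4⟩ := hU z hz
    cases b
    · exact (jac_eq hf h3 h4 h2.holAt).1
    · exact h2.holAt
  · intro z hz
    obtain ⟨h2, h3, h4⟩ := hU z hz
    rw [Bool.forall_bool]
    show z ∈ Bad p f D ↔ (fderiv ℂ ((fun z => (Fin.cons (g z) (chartAt (Cm p) (f x) (f z)) :
      Cm (p + 1))) ∘ (chartAt (Cm (p + 1)) x).symm) (chartAt (Cm (p + 1)) x z)).det = 0 ∧ g z = 0
    rw [(jac_eq hf h3 h4 h2.holAt).2]
    constructor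
    · rintro ⟨hzD, g', hg', ξ, hξ, h5, h6⟩
      exact ⟨⟨ξ, hξ, h5, ker_eq hzD hg' h2 h6⟩, h2.mem_iff.1 hzD⟩
    · rintro ⟨⟨ξ, hξ, h5, h6⟩, h7⟩
      exact ⟨h2.mem_iff.2 h7, g, h2, ξ, hξ, h5, h6⟩

omit [IsManifold 𝓘(ℂ, Cm (p + 1)) ω X] in
theorem analytic_inter {D D' : Set X} (hD : ∀ x, ∃ g, IsLocalEq (Cm (p + 1)) D g x)
    (hD' : ∀ x, ∃ g, IsLocalEq (Cm (p + 1)) D' g x) : IsAnalyticSet (Cm (p + 1)) (D ∩ D') := by
  intro x
  obtain ⟨g, hg⟩ := hD x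
  obtain ⟨g', hg'⟩ := hD' x
  obtain ⟨U, hU, hUo, hxU⟩ := eventually_nhds_iff.1 (hg.eventually.and hg'.eventually)
  refine ⟨U, Bool, fun b => bif b then g else g', hUo, hxU, ?_, ?_⟩
  · intro b z hz
    obtain ⟨h2, h3⟩ := hU z hz
    cases b
    · exact h3.holAt
    · exact h2.holAt
  · intro z hz
    obtain ⟨h2, h3⟩ := hU z hz
    rw [Bool.forall_bool]
    show z ∈ D ∩ D' ↔ g' z = 0 ∧ g z = 0
    rw [mem_inter_iff, h2.mem_iff, h3.mem_iff, and_comm]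

omit [IsManifold 𝓘(ℂ, Cm (p + 1)) ω X] in
/-- a local equation of `D` on a disc in `D` -/
theorem disc {D : Set X} {m : ℕ} {φ : Cm m → X} {v : Cm m} (hv : v ∈ ball (0 : Cm m) 1)
    (hφ : ∀ v ∈ ball (0 : Cm m) 1, ContMDiffAt 𝓘(ℂ, Cm m) 𝓘(ℂ, Cm (p + 1)) ω φ v ∧ φ v ∈ D)
    {g : X → ℂ} (hg : IsLocalEq (Cm (p + 1)) D g (φ v)) (w : Cm m) :
    dV (Cm (p + 1)) g (φ v) (dM (Cm m) (Cm (p + 1)) φ v w) = 0 := by
  have h1 : (fun v => g (φ v)) =ᶠ[𝓝 v] fun _ => (0 : ℂ) := by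
    filter_upwards [(hφ v hv).1.continuousAt.eventually hg.eventually,
      isOpen_ball.mem_nhds hv] with v' h2 h3
    exact h2.mem_iff.1 (hφ v' h3).2
  have h2 := dV_comp (E := Cm m) (E' := Cm (p + 1)) hg.holAt (hφ v hv).1
  have h3 : dV (Cm m) (fun v => g (φ v)) v = 0 := by
    unfold dV
    rw [h1.mfderiv_eq, mfderiv_const]
    rfl
  rw [h3] at h2
  have h4 := congrArg (fun B : Cm m →L[ℂ] ℂ => B w) h2
  exact h4.symm

omit [IsManifold 𝓘(ℂ, Cm (p + 1)) ω X] [IsManifold 𝓘(ℂ, Cm p) ω Y] in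
theorem comp_surj {f : X → Y} (hf : ContMDiff 𝓘(ℂ, Cm (p + 1)) 𝓘(ℂ, Cm p) ω f) {m : ℕ}
    {φ : Cm m → X} {v : Cm m} (hφ : ContMDiffAt 𝓘(ℂ, Cm m) 𝓘(ℂ, Cm (p + 1)) ω φ v)
    (hs : Function.Surjective (mfderiv 𝓘(ℂ, Cm m) 𝓘(ℂ, Cm p) (fun v => f (φ v)) v)) :
    Function.Surjective fun w => dM (Cm (p + 1)) (Cm p) f (φ v) (dM (Cm m) (Cm (p + 1)) φ v w) := by
  have h1 := mfderiv_comp v (g := f) (f := φ) ((hf (φ v)).mdifferentiableAt (by simp))
    (hφ.mdifferentiableAt (by simp))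
  intro y
  obtain ⟨w, hw⟩ := hs y
  refine ⟨w, ?_⟩
  have h2 : mfderiv 𝓘(ℂ, Cm m) 𝓘(ℂ, Cm p) (f ∘ φ) v w = y := hw
  rw [h1] at h2
  exact h2

end

/-- countable unions -/
theorem thin_empty {p : ℕ} {Y : Type} [TopologicalSpace Y] [ChartedSpace (Cm p) Y] :
    IsThinSet (Cm p) (∅ : Set Y) := by
  refine ⟨isClosed_empty, fun y => ⟨fun _ => 1, contMDiffAt_const, ?_, ?_⟩⟩
  · intro h
    exact one_ne_zero h.self_of_nhds
  · exact Eventually.of_forall fun z hz => absurd hz (notMem_empty z)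

theorem thin_iUnion {p : ℕ} {Y : Type} [TopologicalSpace Y] [ChartedSpace (Cm p) Y] {ι : Type}
    [Countable ι] {B : ι → Set Y}
    (h : ∀ i, ∃ H : ℕ → Set Y, (∀ k, IsThinSet (Cm p) (H k)) ∧ B i ⊆ ⋃ k, H k) :
    ∃ H : ℕ → Set Y, (∀ k, IsThinSet (Cm p) (H k)) ∧ ⋃ i, B i ⊆ ⋃ k, H k := by
  choose H h1 h2 using h
  let _ := Encodable.ofCountable (ι × ℕ)
  refine ⟨fun k => ((Encodable.decode k : Option (ι × ℕ)).map fun q => H q.1 q.2).getD ∅, ?_, ?_⟩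
  · intro k
    cases hq : (Encodable.decode k : Option (ι × ℕ)) with
    | none => simpa [hq] using thin_empty
    | some q => simpa [hq] using h1 q.1 q.2
  · intro y hy
    obtain ⟨i, hi⟩ := mem_iUnion.1 hy
    obtain ⟨k, hk⟩ := mem_iUnion.1 (h2 i hi)
    refine mem_iUnion.2 ⟨Encodable.encode (i, k), ?_⟩
    simpa using hk

/-- **V5** -/
theorem etale (himg : ImgStmt) : EtaleStmt := by
  intro p X Y _ _ _ _ _ _ _ _ _ f Δ hf hΔ
  obtain ⟨hfin, hprime, -, hsurj⟩ := hΔ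
  have hg : ∀ x D, ∃ g : X → ℂ, Δ D ≠ 0 → IsLocalEq (Cm (p + 1)) D g x := by
    intro x D
    by_cases hD : Δ D ≠ 0
    · obtain ⟨g, hg⟩ := (hprime D hD).2.1 x
      exact ⟨g, fun _ => hg⟩
    · exact ⟨0, fun h => absurd h hD⟩
  choose g hg using hg
  have hs : ∀ x, Function.Surjective fun (ξ : Cm (p + 1)) (D : {D // Δ D ≠ 0 ∧ x ∈ D}) =>
      dV (Cm (p + 1)) (g x D) x ξ := fun x => hsurj x (g x) (fun D hD _ => hg x D hD)
  have hfin' : Finite {D // Δ D ≠ 0} := hfin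
  classical
  set A : {D // Δ D ≠ 0} × {D // Δ D ≠ 0} → Set X := fun q =>
    if q.1 = q.2 then Bad p f q.1.1 else q.1.1 ∩ q.2.1 with hA
  have han : ∀ q, IsAnalyticSet (Cm (p + 1)) (A q) := by
    rintro ⟨⟨D, hD⟩, ⟨D', hD'⟩⟩
    by_cases h : (⟨D, hD⟩ : {D // Δ D ≠ 0}) = ⟨D', hD'⟩
    · have : A (⟨D, hD⟩, ⟨D', hD'⟩) = Bad p f D := if_pos h
      rw [this]
      exact analytic_bad hf (hprime D hD).2.1
    · have : A (⟨D, hD⟩, ⟨D', hD'⟩) = D ∩ D' := if_neg h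
      rw [this]
      exact analytic_inter (hprime D hD).2.1 (hprime D' hD').2.1
  have hclosed : ∀ q, IsClosed (A q) := by
    intro q
    refine isClosed_of_closure_subset fun x hx => ?_
    obtain ⟨U, ι, h, hUo, hxU, h1, h2⟩ := han q x
    refine (h2 x hxU).2 fun i => ?_
    have hc : ContinuousAt (h i) x := ContMDiffAt.continuousAt (h1 i x hxU)
    by_contra h0
    have h3 := hc.eventually_ne h0
    rw [mem_closure_iff_frequently] at hx
    obtain ⟨z, hz1, hz2, hz3⟩ := (hx.and_eventually (h3.and (hUo.mem_nhds hxU))).exists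
    exact hz2 ((h2 z hz3).1 hz1 i)
  have hthin : ∀ q, ∃ H : ℕ → Set Y, (∀ k, IsThinSet (Cm p) (H k)) ∧ f '' A q ⊆ ⋃ k, H k := by
    rintro ⟨⟨D, hD⟩, ⟨D', hD'⟩⟩
    refine himg (p + 1) p X Y f _ hf (han _) ?_
    intro m φ hφ v hv hsj
    have hsj' := comp_surj hf (hφ v hv).1 hsj
    set x := φ v with hx
    by_cases h : (⟨D, hD⟩ : {D // Δ D ≠ 0}) = ⟨D', hD'⟩
    · have hAq : A (⟨D, hD⟩, ⟨D', hD'⟩) = Bad p f D := if_pos h
      rw [hAq] at hφ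
      obtain ⟨hxD, g', hg', ξ, hξ, h5, h6⟩ := (hφ v hv).2
      have h7 := ker_eq hxD hg' (hg x D hD) h6
      have hne : dV (Cm (p + 1)) (g x D) x ≠ 0 := by
        intro h0
        obtain ⟨ζ, hζ⟩ := hs x (fun _ => 1)
        have h1 := congrFun hζ ⟨D, hD, hxD⟩
        have h2 : dV (Cm (p + 1)) (g x D) x ζ = 1 := h1
        rw [h0] at h2
        exact zero_ne_one h2
      refine rank1 (A := (dM (Cm (p + 1)) (Cm p) f x : Cm (p + 1) →ₗ[ℂ] Cm p))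
        (u := (dV (Cm (p + 1)) (g x D) x : Cm (p + 1) →ₗ[ℂ] ℂ))
        (B := (dM (Cm m) (Cm (p + 1)) φ v : Cm m →ₗ[ℂ] Cm (p + 1))) ?_ ?_ hξ h5 h7 hsj'
      · intro h0
        apply hne
        exact ContinuousLinearMap.ext fun w => congrArg (fun L : Cm (p + 1) →ₗ[ℂ] ℂ => L w) h0
      · intro w
        exact disc hv (fun v hv => ⟨(hφ v hv).1, (hφ v hv).2.1⟩) (hg x D hD) w
    · have hAq : A (⟨D, hD⟩, ⟨D', hD'⟩) = D ∩ D' := if_neg h
      rw [hAq] at hφ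
      have hxD := (hφ v hv).2
      have hne : D ≠ D' := fun h1 => h (Subtype.ext h1)
      refine rank2 (A := (dM (Cm (p + 1)) (Cm p) f x : Cm (p + 1) →ₗ[ℂ] Cm p))
        (u := (dV (Cm (p + 1)) (g x D) x : Cm (p + 1) →ₗ[ℂ] ℂ))
        (u' := (dV (Cm (p + 1)) (g x D') x : Cm (p + 1) →ₗ[ℂ] ℂ))
        (B := (dM (Cm m) (Cm (p + 1)) φ v : Cm m →ₗ[ℂ] Cm (p + 1))) ?_ ?_ ?_ hsj'
      · intro a b
        obtain ⟨ζ, hζ⟩ := hs x (fun G => if G.1 = D then a else b)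
        refine ⟨ζ, ?_, ?_⟩
        · have h1 := congrFun hζ ⟨D, hD, hxD.1⟩
          have h2 : dV (Cm (p + 1)) (g x D) x ζ = if D = D then a else b := h1
          rw [if_pos rfl] at h2
          exact h2
        · have h1 := congrFun hζ ⟨D', hD', hxD.2⟩
          have h2 : dV (Cm (p + 1)) (g x D') x ζ = if D' = D then a else b := h1
          rw [if_neg (fun h => hne h.symm)] at h2
          exact h2
      · intro w
        exact disc hv (fun v hv => ⟨(hφ v hv).1, (hφ v hv).2.1⟩) (hg x D hD) w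
      · intro w
        exact disc hv (fun v hv => ⟨(hφ v hv).1, (hφ v hv).2.2⟩) (hg x D' hD') w
  refine ⟨⋃ q, f '' A q, ⟨?_, thin_iUnion hthin⟩, fun S' hS' => ⟨?_, ?_⟩⟩
  · refine isClosed_iUnion_of_finite fun q => ?_
    exact ((hclosed q).isCompact.image hf.continuous).isClosed
  · intro D hD x hx hxS
    refine ⟨g x D, hg x D hD.1, fun ξ h1 h2 => ?_⟩
    by_contra hξ
    apply hxS
    refine hS' (mem_iUnion.2 ⟨(⟨D, hD.1⟩, ⟨D, hD.1⟩), x, ?_, rfl⟩)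
    have hAq : A (⟨D, hD.1⟩, ⟨D, hD.1⟩) = Bad p f D := if_pos rfl
    rw [hAq]
    exact ⟨hx, g x D, hg x D hD.1, ξ, hξ, h1, h2⟩
  · intro D hD D' hD' hne x hx
    refine hS' (mem_iUnion.2 ⟨(⟨D, hD.1⟩, ⟨D', hD'.1⟩), x, ?_, rfl⟩)
    have hAq : A (⟨D, hD.1⟩, ⟨D', hD'.1⟩) = D ∩ D' :=
      if_neg fun h => hne (congrArg Subtype.val h)
    rw [hAq]
    exact hx

end Vale.Agent.P281.H399.Gen
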